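import Vale.Agent.P207Z.Dyn
import Vale.Agent.P207Z.Geo.Defs2

/-!
# P207: the Oseledets grading at one point
-/

set_option linter.all false

open Set Filter Topology Metric MeasureTheory

noncomputable section

namespace Vale.Agent.P207Z

open MET

variable {Γ X B E V : Type} [Group Γ] [Countable Γ] [MetricSpace X] [ProperSpace X]
  [MulAction Γ X] [IsIsometricSMul Γ X] [MeasurableSpace X] [BorelSpace X]
  [TopologicalSpace B] [CompactSpace B] [T2Space B] [SecondCountableTopology B] [MulAction Γ B]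
  [ContinuousConstSMul Γ B] [MeasurableSpace B] [BorelSpace B]
  [NormedAddCommGroup E] [InnerProductSpace ℝ E] [FiniteDimensional ℝ E]
  [NormedAddCommGroup V] [NormedSpace ℝ V] [FiniteDimensional ℝ V]
  {S : Sys Γ X B E V} {m : ℕ}

namespace Grad

variable {s : Finset ℝ} {p : ℝ → V →L[ℝ] V} {a : ℝ} {v : V}

theorem sum_apply (h : Grad S s p) (v : V) : ∑ a ∈ s, p a v = v := by
  rw [← ContinuousLinearMap.sum_apply, h.sum]
  rfl

theorem of_not_mem (h : Grad S s p) (ha : a ∉ s) : p a = 0 := by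
  rw [← mul_one (p a), ← h.sum, Finset.mul_sum]
  exact Finset.sum_eq_zero fun b hb => by
    rw [h.orth, if_neg (ne_of_mem_of_not_mem hb ha).symm]

theorem mem_Es (h : Grad S s p) (ha : a ≤ 0) (v : V) : p a v ∈ S.Es := by
  by_cases h1 : a ∈ s
  · have h2 : S.eS * p a = p a := by
      rw [← h.neg, Finset.sum_mul, Finset.sum_eq_single_of_mem a ?_ fun b _ hb => ?_, h.orth,
        if_pos rfl]
      · exact Finset.mem_filter.2 ⟨h1, lt_of_le_of_ne ha fun e => h.zero (e ▸ h1)⟩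
      · rw [h.orth, if_neg hb]
    exact ⟨_, DFunLike.congr_fun h2 v⟩
  · rw [h.of_not_mem h1]
    exact S.Es.zero_mem

theorem kill (h : Grad S s p) (ha : 0 ≤ a) (hv : v ∈ S.Es) : p a v = 0 := by
  have h2 : p a * S.eS = 0 := by
    rw [← h.neg, Finset.mul_sum]
    exact Finset.sum_eq_zero fun b hb => by
      rw [h.orth, if_neg ((Finset.mem_filter.1 hb).2.trans_le ha).ne']
  rw [← S.iS_pS (S.mem_Es.1 hv)]
  exact DFunLike.congr_fun h2 v

end Grad

namespace Gr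

theorem axis_le (i : E →L[ℝ] V) {x y : X} (h : S.pt x = S.pt y) {C : ℝ}
    (hC : ‖iteratedFDeriv ℝ 1 (fun w => ttau S.c x y (i w)) 0‖ ≤ C) (w : E) :
    ‖fderiv ℝ (S.τ x y) 0 (i w)‖ ≤ C * ‖w‖ := by
  have h1 : HasFDerivAt (S.τ x y) (fderiv ℝ (S.τ x y) 0) (i 0) := by
    rw [map_zero]
    exact (Sys.differentiableAt_τ (Sys.zero_dom h)).hasFDerivAt
  rw [norm_iteratedFDeriv_one, show fderiv ℝ (fun w => ttau S.c x y (i w)) 0 = _ from
    (h1.comp 0 i.hasFDerivAt).fderiv] at hC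
  exact ContinuousLinearMap.le_of_opNorm_le _ hC w

theorem grad_of_osel {Φ : ℝ → X → V →L[ℝ] V} {L : ℝ} {x : X} {π : ℝ → V →L[ℝ] V}
    (hc : FCoc S.φ Φ L) (h : Osel S.φ Φ x π)
    (hΦ : ∀ t, Φ t x = fderiv ℝ (S.τ x (S.φ t x)) 0) : Grad S h.fin.toFinset π := by
  have hl := S.lam_pos
  have hS : ∀ a, 0 ≤ a → ∀ w, π a (S.iS w) = 0 := fun a ha w => by
    obtain ⟨C, hC⟩ := S.contrS 1 le_rfl
    refine h.fwd_zero hc (w := -S.lam) (by linarith) (C := C * ‖w‖) fun N => ⟨N, le_rfl, ?_⟩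
    rw [hΦ, mul_right_comm, mul_comm (N : ℝ)]
    exact axis_le _ (S.pt_φ _ x).symm (hC x N (Nat.cast_nonneg N) 0 (mem_ball_self S.ρ_pos)) w
  have hU : ∀ a, a ≤ 0 → ∀ w, π a (S.iU w) = 0 := fun a ha w => by
    obtain ⟨C, hC⟩ := S.contrU 1 le_rfl
    refine h.bwd_zero hc (w := S.lam) (by linarith) (C := C * ‖w‖) fun N => ⟨N, le_rfl, ?_⟩
    rw [hΦ, mul_right_comm, mul_comm (N : ℝ), ← neg_mul]
    exact axis_le _ (S.pt_φ _ x).symm (hC x N (Nat.cast_nonneg N) 0 (mem_ball_self S.ρ_pos)) w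
  have h1 : ∑ a ∈ h.fin.toFinset, π a = 1 := by
    rw [h.sum_eq fun a ha => by simpa using ha, hΦ, S.φ_zero,
      Sys.fderiv_τ_self (mem_ball_self one_pos)]
  refine ⟨h1, fun a b => ?_, fun h0 => ?_, ContinuousLinearMap.ext fun v => ?_⟩
  · split_ifs with e
    · rw [← e, h.idem S.fact hc]
    · exact h.orth S.fact hc e
  · refine (h.fin.mem_toFinset.1 h0) (ContinuousLinearMap.ext fun v => ?_)
    rw [← S.iS_add v, map_add, hS 0 le_rfl, hU 0 le_rfl, add_zero]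
    rfl
  · change _ = (1 : V →L[ℝ] V) (S.iS (S.pS v))
    rw [← h1, ContinuousLinearMap.sum_apply, ContinuousLinearMap.sum_apply, Finset.sum_filter]
    refine Finset.sum_congr rfl fun a _ => ?_
    split_ifs with e
    · conv_lhs => rw [← S.iS_add v, map_add, hU a e.le, add_zero]
    · rw [hS a (not_lt.1 e)]

section form

variable {φ : ℝ → X → X} {Φ : ℝ → X → V →L[ℝ] V} {Ψ : ℝ → X → Fm m V × ℝ →L[ℝ] Fm m V × ℝ}
  {x : X} {π : ℝ → V →L[ℝ] V} {π' : ℝ → Fm m V × ℝ →L[ℝ] Fm m V × ℝ} {h L L' : ℝ}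

theorem form_zero (hφ : FAct φ) (o : Osel φ Φ x π) (o' : Osel φ Ψ x π')
    (h1 : ∀ t a (v : Fin m → V),
      |(Ψ t x a).1 fun i => Φ t x (v i)| = Real.exp (h * t) * |a.1 v|)
    {b : ℝ} {c : Fin m → ℝ} (hb : b + ∑ i, c i ≠ h) (a : Fm m V × ℝ) (v : Fin m → V) :
    (π' b a).1 (fun i => π (c i) (v i)) = 0 := by
  refine abs_nonpos_iff.1 (eq_zero_of_two (sub_ne_zero.2 hb) fun ε hε => ?_)
  have hδ : 0 < ε / (m + 1) := by positivity
  obtain ⟨D, hD0, hD⟩ := o'.up_apply hφ b hδ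
  choose C hC0 hC using fun i => o.up_apply hφ (c i) hδ
  refine ⟨D * ‖a‖ * ∏ i, C i * ‖v i‖, fun t => ?_⟩
  refine le_of_mul_le_mul_left ?_ (Real.exp_pos (h * t))
  rw [← h1]
  refine (((Ψ t x (π' b a)).1.le_opNorm _).trans (mul_le_mul ((norm_fst_le _).trans (hD t a))
    (Finset.prod_le_prod (fun i _ => norm_nonneg _) fun i _ => hC i t (v i))
    (Finset.prod_nonneg fun i _ => norm_nonneg _) (by positivity))).trans_eq ?_
  simp only [mul_right_comm (C _), Finset.prod_mul_distrib (g := fun i => Real.exp _),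
    ← Real.exp_sum]
  rw [mul_right_comm D, mul_mul_mul_comm, ← Real.exp_add, mul_left_comm (Real.exp _), ← Real.exp_add,
    Finset.sum_add_distrib, ← Finset.mul_sum, Finset.sum_const, Finset.card_univ, Fintype.card_fin,
    nsmul_eq_mul]
  congr 2
  field_simp
  ring

theorem snd_zero (hφ : FAct φ) (o' : Osel φ Ψ x π') (h2 : ∀ t a, (Ψ t x a).2 = a.2)
    {b : ℝ} (hb : b ≠ 0) (a : Fm m V × ℝ) : (π' b a).2 = 0 := by
  refine norm_le_zero_iff.1 (eq_zero_of_two hb fun ε hε => ?_)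
  obtain ⟨D, -, hD⟩ := o'.up_apply hφ b hε
  refine ⟨D * ‖a‖, fun t => ?_⟩
  rw [← h2 t, mul_right_comm]
  exact (norm_snd_le _).trans (hD t a)

theorem form_ext {α β : Fm m V} {s : Finset ℝ} {p : ℝ → V →L[ℝ] V} (hs : ∀ v, ∑ a ∈ s, p a v = v)
    (h : ∀ (c : Fin m → ℝ) (v : Fin m → V),
      α (fun i => p (c i) (v i)) = β fun i => p (c i) (v i)) : α = β := by
  ext v
  rw [show v = fun i => ∑ c ∈ s, p c (v i) from funext fun i => (hs _).symm,
    α.map_sum_finset (fun i c => p c (v i)) fun _ => s,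
    β.map_sum_finset (fun i c => p c (v i)) fun _ => s]
  exact Finset.sum_congr rfl fun c _ => h c v

theorem der_eig {D : V →L[ℝ] V} {w : Fin m → V} {c : Fin m → ℝ} (h : ∀ i, D (w i) = c i • w i)
    (α : Fm m V) : der m V D α w = (∑ i, c i) * α w := by
  change α.fderivCompContinuousLinearMap (ContinuousLinearMap.id ℝ V) D w = _
  rw [ContinuousAlternatingMap.fderivCompContinuousLinearMap_apply, Finset.sum_mul]
  refine Finset.sum_congr rfl fun i _ => ?_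
  rw [← smul_eq_mul, ← Function.update_eq_self i w, ← α.map_update_smul, Function.update_eq_self]
  congr 1
  funext j
  by_cases e : j = i
  · simp [e, h]
  · simp [e]

theorem del_form (hφ : FAct φ) (hc : FCoc φ Φ L) (r : Reg φ Φ x) (r' : Reg φ Ψ x)
    (h0 : Φ 0 x = 1) (h0' : Ψ 0 x = 1)
    (h1 : ∀ t a (v : Fin m → V),
      |(Ψ t x a).1 fun i => Φ t x (v i)| = Real.exp (h * t) * |a.1 v|)
    (h2 : ∀ t a, (Ψ t x a).2 = a.2) : del φ Ψ x = drho m V (del φ Φ x, h) := by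
  have e' : ∀ b, prj φ Ψ x b ≠ 0 → b ∈ r'.osel.fin.toFinset := fun b hb => by simpa using hb
  refine ContinuousLinearMap.ext fun a => Prod.ext ?_ ?_
  · refine form_ext (s := r.osel.fin.toFinset) (p := prj φ Φ x) (fun v => by
      rw [r.osel.sum_apply fun b hb => by simpa using hb, h0]; rfl) fun c v => ?_
    change _ = h * a.1 _ - der m V (del φ Φ x) a.1 _
    rw [der_eig (D := del φ Φ x) (w := fun i => prj φ Φ x (c i) (v i)) (c := c)
      fun i => DFunLike.congr_fun (del_prj hφ hc x (c i)).1 (v i), ← sub_mul, del_eq e']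
    have h3 := r'.osel.sum_apply e' a
    rw [h0', ContinuousLinearMap.one_apply] at h3
    conv_rhs => rw [← h3]
    simp only [ContinuousLinearMap.sum_apply, Prod.fst_sum, ContinuousAlternatingMap.sum_apply,
      Finset.mul_sum]
    refine Finset.sum_congr rfl fun b _ => ?_
    change b * (prj φ Ψ x b a).1 _ = _
    by_cases hb : b + ∑ i, c i = h
    · rw [← hb, add_sub_cancel_right]
    · rw [form_zero hφ r.osel r'.osel h1 hb, mul_zero, mul_zero]
  · change _ = (0 : ℝ)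
    rw [del_eq e', ContinuousLinearMap.sum_apply, Prod.snd_sum]
    refine Finset.sum_eq_zero fun b _ => ?_
    change b * (prj φ Ψ x b a).2 = 0
    by_cases hb : b = 0
    · rw [hb, zero_mul]
    · rw [snd_zero hφ r'.osel h2 hb, mul_zero]

end form

theorem om_anti (S : Sys Γ X B E V) (u v : V) : S.om u v = -S.om v u := by
  rw [S.om_apply, S.om_apply, real_inner_comm (S.pS u), real_inner_comm (S.pU u)]
  ring

theorem perp_perp (S : Sys Γ X B E V) (H : Submodule ℝ V) : S.perp (S.perp H) = H := by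
  have h1 : ∀ u, (∀ v, S.om u v = 0) → u = 0 := fun u hu => by
    have h2 := hu (S.iU (S.pS u))
    have h3 := hu (S.iS (S.pU u))
    simp only [S.om_apply, S.pS_iS, S.pU_iU, S.pS_iU, S.pU_iS, inner_zero_right, sub_zero, zero_sub,
      neg_eq_zero, inner_self_eq_zero] at h2 h3
    rw [← S.iS_add u, h2, h3, map_zero, map_zero, add_zero]
  exact LinearMap.BilinForm.orthogonal_orthogonal (B := S.om.toBilinForm)
    ⟨h1, fun u hu => h1 u fun v => by rw [om_anti, neg_eq_zero]; exact hu v⟩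
    (fun u v h => by
      change S.om v u = 0
      rw [om_anti, neg_eq_zero]
      exact h) H

theorem Es_le_perp {F : Submodule ℝ V} (h : F ≤ S.Es) : S.Es ≤ S.perp F := fun v hv w hw => by
  rw [S.om_apply, S.mem_Es.1 hv, S.mem_Es.1 (h hw), inner_zero_left, inner_zero_right, sub_zero]

theorem levi_core {W : Type} [NormedAddCommGroup W] [NormedSpace ℝ W] {s s' : Finset ℝ}
    {p : ℝ → V →L[ℝ] V} (g : Grad S s p) {p' : ℝ → V × W →L[ℝ] V × W}
    {β : V × W →L[ℝ] V × W →L[ℝ] V} (hs : ∀ j, ∑ a ∈ s', p' a j = j)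
    (h1 : ∀ a j, (p' a j).1 = p a j.1)
    (h2 : ∀ a b c, c ≠ a + b → ∀ j j', p c (β (p' a j) (p' b j')) = 0)
    (h3 : ∀ a b, a + b ≠ 0 → ∀ u v, S.om (p a u) (p b v) = 0)
    {F : Submodule ℝ V} {J : Submodule ℝ (V × W)} (hF : F ≤ S.Es) (hne : F ≠ S.Es)
    (pJ : ∀ a, ∀ j ∈ J, p' a j ∈ J) (JC : ∀ j ∈ J, j.1 ∈ S.perp F)
    (CJ : ∀ v ∈ S.perp F, ∃ j ∈ J, j.1 = v)
    (hb : ∀ j ∈ J, ∀ j' ∈ J, j'.1 ∈ F → β j j' ∈ S.perp F) :
    ∃ j ∈ J, j.1 ∉ F ∧ ∀ j' ∈ J, β j j' ∈ S.perp F := by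
  classical
  obtain ⟨v₀, h4, h5⟩ := SetLike.exists_of_lt (lt_of_le_of_ne hF hne)
  obtain ⟨a₀, h6, h7⟩ : ∃ a ∈ s, p a v₀ ∉ F := by
    by_contra hc
    push Not at hc
    exact h5 (g.sum_apply v₀ ▸ F.sum_mem hc)
  have h8 : a₀ < 0 := not_le.1 fun e => h7 (g.kill e h4 ▸ F.zero_mem)
  obtain ⟨μ, hμ, hm⟩ := Finset.exists_min_image (s.filter fun a => ∃ v ∈ S.perp F, p a v ∉ F) id
    ⟨a₀, Finset.mem_filter.2 ⟨h6, v₀, Es_le_perp hF h4, h7⟩⟩
  have h9 : μ < 0 := (hm a₀ (Finset.mem_filter.2 ⟨h6, v₀, Es_le_perp hF h4, h7⟩)).trans_lt h8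
  obtain ⟨-, v, hv, hv'⟩ := Finset.mem_filter.1 hμ
  obtain ⟨j, hj, rfl⟩ := CJ v hv
  refine ⟨p' μ j, pJ μ j hj, by rwa [h1], fun j' hj' => ?_⟩
  rw [← hs j', map_sum]
  refine Submodule.sum_mem _ fun ν _ => ?_
  by_cases e : (p' ν j').1 ∈ F
  · exact hb _ (pJ μ j hj) _ (pJ ν j' hj') e
  · rw [← perp_perp S F] at e
    obtain ⟨u, hu, hu'⟩ : ∃ u ∈ S.perp F, S.om u (p' ν j').1 ≠ 0 := by
      by_contra hc
      push Not at hc
      exact e hc
    rw [← g.sum_apply u, map_sum, ContinuousLinearMap.sum_apply] at hu'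
    obtain ⟨b, hb1, hb2⟩ := Finset.exists_ne_zero_of_sum_ne_zero hu'
    have h10 : b + ν = 0 := by_contra fun e' => hb2 (by rw [h1, h3 b ν e'])
    have h11 : μ ≤ b := hm b (Finset.mem_filter.2 ⟨hb1, u, hu, fun e' =>
      hb2 (JC _ (pJ ν j' hj') _ e')⟩)
    rw [← g.sum_apply (β _ _)]
    refine Submodule.sum_mem _ fun c _ => ?_
    by_cases e' : c = μ + ν
    · exact Es_le_perp hF (g.mem_Es (by linarith) _)
    · rw [h2 μ ν c e']
      exact Submodule.zero_mem _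

end Gr

end Vale.Agent.P207Z
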